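import Vale.Agent.P218G.GRs
import Vale.Agent.P218G.Fin
import Vale.Agent.P218S7.Ultra
import Vale.Agent.P218S.St

/-! Weak convergence of the rescalings to a smooth self-similar flow of multiplicity one is
locally smooth convergence. -/

open MeasureTheory Set Filter Topology Metric
open scoped ENNReal NNReal RealInnerProductSpace ContDiff

namespace Vale.Agent.P218S18

open Vale.Agent.P218 Vale.Agent.P218.H313.A1
open Vale.Agent.P218G Vale.Agent.P218G.GL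
open Vale.Agent.P218G.Lit Vale.Agent.P218G.Rg Vale.Agent.P218G.Dyn Vale.Agent.P218G.WL
open Vale.Agent.P218FT Vale.Agent.P218FT.Conv
open Vale.Agent.P218F.Dyn (hm)

/-- the density of a smooth self-similar flow at negative times -/
lemma dens_lt {ν : ℝ → Measure E3} {S : Set E3} {D ε θ t : ℝ} {x : E3} (hS : IsSurf S)
    (hE : Ent (hm S) D) (h : ∀ s < 0, ν s = hm (ssFlow S s)) (hε : 0 < ε) (ht : t < 0)
    (hd : Dens ν x t θ) : θ < (1 + ε) * om0 := by
  have h1 := om0_pos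
  have ht' : 0 < -t := neg_pos.2 ht
  have q0 : 0 < √(-t) := Real.sqrt_pos.2 ht'
  obtain ⟨σ₀, h2, h3⟩ := slow_proof S D hS hE (‖x‖ / √(-t)) (ε / 2) (half_pos hε)
  refine (le_of_tendsto hd (b := (1 + ε / 2) * om0) ?_).trans_lt (by nlinarith)
  filter_upwards [Ioo_mem_nhdsGT (mul_pos h2 ht')] with σ hσ
  have a1 : 0 < -(t - σ) := by linarith [hσ.1]
  have a2 : 0 < √(-(t - σ)) := Real.sqrt_pos.2 a1
  rw [h _ (by linarith), ssFlow, P218F.DynBridge.hm_scale a2, GA_dil a2, Real.sq_sqrt a1.le]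
  refine h3 _ _ ?_ (div_pos hσ.1 a1) ?_
  · rw [zero_add, norm_smul, norm_inv, Real.norm_of_nonneg a2.le, inv_mul_eq_div]
    exact div_le_div_of_nonneg_left (norm_nonneg _) q0
      (Real.sqrt_le_sqrt (by linarith [hσ.1]))
  · rw [div_le_iff₀ a1]
    nlinarith [hσ.1, hσ.2]

variable {μ : ℝ → Measure E3} {x₀ : E3} {t₀ : ℝ} {S : Set E3}

/-- along every ultrafilter -/
theorem ultra (hμ : IsIntegralBrakkeFlow 2 μ) (h0 : μ 0 univ < ⊤) (hU : IsUnitRegular μ)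
    (ht : 0 < t₀) (hS : IsSurf S) (hc : ConvTo μ x₀ t₀ S) (V : Ultrafilter ℝ)
    (hV : ↑V ≤ (atTop : Filter ℝ)) :
    SLim V (fun lam => Spt (rescaled 2 μ x₀ t₀ lam)) (ssFlow S) (Iio 0) ∧
      ∀ t < 0, ∀ x : E3, ∃ W ∈ 𝓝 (t, x), ∀ᶠ lam in (V : Filter ℝ),
        W ⊆ scaleReg lam x₀ t₀ (RegS μ) := by
  have h1 := gs_proof μ hμ h0 _ (half_pos ht)
  generalize (μ 0).real univ / (t₀ / 2) = D at h1
  obtain ⟨ε, hε, h2⟩ := rs_ibf D
  obtain ⟨ε₁, hε₁, h3⟩ := rs_lim D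
  have h4 := (h2 μ _ hμ h0 hU (half_pos ht).le h1).mono (min_le_left ε ε₁)
  have hl : Tendsto (fun lam : ℝ => lam) V atTop := hV
  obtain ⟨ν, hb⟩ := exists_blow V hl h1 x₀ (half_lt_self ht)
  have e1 := ev_rs h4 hl (fun _ => x₀) tendsto_const_nhds (half_lt_self ht)
  have e2 := hb.ent h1 (half_lt_self ht)
  have h5 := h3 _ (min_le_right ε ε₁) V _ _ ν e1 e2 hb.lim
  have hs : ∀ s < 0, IsSurf (ssFlow S s) := fun s hs =>
    hS.scale (Real.sqrt_pos.2 (neg_pos.2 hs)).ne' 0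
  have h6 : ∀ s < 0, ν s = hm (ssFlow S s) := fun s h =>
    (hb.lim s).unique (fun φ a b => (hc s h φ a b).mono_left hV) (hb.lf s)
      (P218F.DynBridge.locFin_hm (hs s h))
  have h7 : Ent (hm S) D := by
    have := e2 (-1)
    rwa [h6 _ (by norm_num), ssFlow, neg_neg, Real.sqrt_one, scaleSet_one_zero] at this
  have h8 : ∀ t < 0, ∀ x : E3, (t, x) ∈ Good V (fun lam => rescaled 2 μ x₀ t₀ lam)
      fun lam => scaleReg lam x₀ t₀ (RegS μ) := fun t h x => by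
    obtain ⟨θ, hd⟩ := exists_dens (h5 (t - 1)).gs x (t := t) (by linarith)
    exact (h5 (t - 1)).gap x t θ (by linarith) hd
      (dens_lt hS h7 h6 (lt_min hε hε₁) h hd)
  have h9 : ∀ t < 0, Spt ν t = ssFlow S t := fun t h => by
    have a1 : tsl (Good V (fun lam => rescaled 2 μ x₀ t₀ lam)
      fun lam => scaleReg lam x₀ t₀ (RegS μ)) t = univ := eq_univ_of_forall fun x => h8 t h x
    have a2 := surfOn_slice (h5 0).mcf t
    have a3 := (h5 0).meas t
    rw [a1] at a2 a3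
    rw [Measure.restrict_univ, inter_univ, h6 t h] at a3
    have a4 : IsSurf (Spt ν t) := ⟨isOpen_compl_iff.1 (isOpen_iff_mem_nhds.2 fun y hy =>
      a2.1 y trivial hy), fun y hy => a2.2 y trivial hy⟩
    exact (subset_of_hm a4 (hs t h).1 a3.symm).antisymm (subset_of_hm (hs t h) a4.1 a3)
  refine ⟨((slimOn_good e1 e2 hb.lim).slim fun t h x => h8 t h x).congr isOpen_Iio
    fun t h => h9 t h, fun t h x => ?_⟩
  obtain ⟨W, hW, r, C, -, a1⟩ := h8 t h x
  exact ⟨W, hW, a1.mono fun _ hi => hi.1⟩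

/-- compact sets of negative times are eventually regular -/
theorem reg_compact (hμ : IsIntegralBrakkeFlow 2 μ) (h0 : μ 0 univ < ⊤) (hU : IsUnitRegular μ)
    (ht : 0 < t₀) (hS : IsSurf S) (hc : ConvTo μ x₀ t₀ S) {K : Set (ℝ × E3)} (hK : IsCompact K)
    (hn : ∀ p ∈ K, p.1 < 0) : ∀ᶠ lam : ℝ in atTop, K ⊆ scaleReg lam x₀ t₀ (RegS μ) := by
  refine mem_iff_ultrafilter.2 fun V hV => ?_
  refine hK.induction_on
    (p := fun s => ∀ᶠ lam in (V : Filter ℝ), s ⊆ scaleReg lam x₀ t₀ (RegS μ)) (by simp)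
    (fun s s' hs h => h.mono fun i hi => hs.trans hi)
    (fun s s' h h' => (h.and h').mono fun i hi => union_subset hi.1 hi.2) fun q hq => ?_
  obtain ⟨W, hW, h3⟩ := (ultra hμ h0 hU ht hS hc V hV).2 q.1 (hn q hq) q.2
  exact ⟨W, mem_nhdsWithin_of_mem_nhds hW, h3⟩

/-- on compact sets of negative times the rescaled measures are area measures -/
theorem meas_compact (hμ : IsIntegralBrakkeFlow 2 μ) (h0 : μ 0 univ < ⊤) (hU : IsUnitRegular μ)
    (ht : 0 < t₀) (hS : IsSurf S) (hc : ConvTo μ x₀ t₀ S) {K : Set (ℝ × E3)} (hK : IsCompact K)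
    (hn : ∀ p ∈ K, p.1 < 0) : ∀ᶠ lam : ℝ in atTop, ∀ s,
      (rescaled 2 μ x₀ t₀ lam s).restrict {y | (s, y) ∈ K} =
        hm (Spt (rescaled 2 μ x₀ t₀ lam) s ∩ {y | (s, y) ∈ K}) := by
  have h1 := gs_proof μ hμ h0 _ (half_pos ht)
  obtain ⟨ε, -, h2⟩ := rs_ibf ((μ 0).real univ / (t₀ / 2))
  have h4 := h2 μ _ hμ h0 hU (half_pos ht).le h1
  filter_upwards [reg_compact hμ h0 hU ht hS hc hK hn, eventually_gt_atTop 0] with lam a1 a2 s
  have a3 : {y | (s, y) ∈ K} ⊆ tsl (scaleReg lam x₀ t₀ (RegS μ)) s := fun y hy => a1 hy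
  have a4 : MeasurableSet {y | (s, y) ∈ K} :=
    (hK.isClosed.preimage (continuous_const.prodMk continuous_id)).measurableSet
  rw [← Measure.restrict_restrict_of_subset a3, (h4.scale a2 x₀ t₀).meas, hm,
    Measure.restrict_restrict a4]
  congr 1
  ext y
  exact ⟨fun hy => ⟨hy.2.1, hy.1⟩, fun hy => ⟨hy.2, hy.1, a3 hy.2⟩⟩

/-- locally smooth convergence of the supports, in the words of the statement -/
theorem smooth (hμ : IsIntegralBrakkeFlow 2 μ) (h0 : μ 0 univ < ⊤) (hU : IsUnitRegular μ)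
    (ht : 0 < t₀) (hS : IsSurf S) (hc : ConvTo μ x₀ t₀ S) :
    P218S.St.SmoothTendsto (fun lam => Spt (rescaled 2 μ x₀ t₀ lam))
      (P218S.St.shrinkingSurface S) := by
  have hu := fun V hV => (ultra hμ h0 hU ht hS hc V hV).1
  have e2 : ∀ s < 0, P218S.St.shrinkingSurface S s = ssFlow S s := fun s hs =>
    (ssFlow_eq S hs).symm
  intro t ht' x
  rw [e2 t ht']
  refine ⟨fun hx => ?_, fun hx => ?_⟩
  · obtain ⟨e, J, pr, δ, ρ, f, f₀, F, d0, -, d1, c1, -, c2, c3⟩ :=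
      P218S7.graph_of_ultra isOpen_Iio hu ht' hx
    have d2 : δ ≤ -t := by
      by_contra hh
      have := d1 (0, 0) (by
        rw [← ball_prod_same]
        exact ⟨mem_ball_self d0, by
          rw [mem_ball_iff_norm, zero_sub, norm_neg, Real.norm_eq_abs, abs_of_neg ht']
          exact not_le.1 hh⟩)
      exact lt_irrefl (0 : ℝ) this
    refine ⟨⟨J.toLinearMap, F.norm_J⟩, e, δ, ρ, f, f₀, ⟨F.unit, F.orth⟩, d0, d2,
      ⟨c1.smooth_lim, fun q hq => ?_⟩, ?_, c1.conv⟩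
    · rw [e2 _ (d1 q hq)]
      exact ⟨(c2 q hq).1, fun z hz => (c2 q hq).2 z hz.le⟩
    · filter_upwards [c1.smooth, c3] with lam a1 a2
      exact ⟨a1, fun q hq => ⟨(a2 q hq).1, fun z hz => (a2 q hq).2 z hz.le⟩⟩
  · obtain ⟨W, hW, h1⟩ := P218S7.out_of_ultra isOpen_Iio hu ht' hx
    exact ⟨Prod.swap ⁻¹' W, continuous_swap.continuousAt.preimage_mem_nhds hW,
      h1.mono fun lam a1 p hp => a1 _ hp⟩

end Vale.Agent.P218S18
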