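import Vale.Agent.P218G.StFin
import Vale.Agent.P218S18.Core
import Vale.Agent.P218S18.St

/-! Weak convergence to a self-shrinker of multiplicity one is locally smooth convergence, in the
words of the statement. -/

open MeasureTheory Set Metric

namespace Vale.Agent.P218S18

open Vale.Agent.P218 Vale.Agent.P218G Vale.Agent.P218G.St
open Vale.Agent.P218FT (E3)

theorem smoothlyTo {μ : ℝ → Measure E3} (hμ : IsIntegralBrakkeFlow 2 μ) (hU : IsUnitRegular μ)
    (hR : ∃ R : ℝ, μ 0 (closedBall 0 R)ᶜ = 0) {x₀ : E3} {t₀ : ℝ} (ht : 0 < t₀) {S : Set E3}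
    (hS : IsSelfShrinker S) (hc : ConvergesTo μ x₀ t₀ S) : St.SmoothlyTo μ x₀ t₀ S := by
  obtain ⟨R, hR⟩ := hR
  have h0 := Rg.mass_lt hμ hR
  have h1 := ((Rg.isShr_iff S).1 ((shr_iff S).1 hS)).1
  have h2 : Rg.ConvTo μ x₀ t₀ S := fun s hs φ a b => by
    rw [Rg.ssFlow_eq S hs]
    exact (conv_iff μ x₀ t₀ S).1 hc s hs φ a b
  exact ⟨_, smooth hμ h0 hU.lit ht h1 h2, fun K hK hn =>
    meas_compact hμ h0 hU.lit ht h1 h2 hK hn⟩

end Vale.Agent.P218S18
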